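import Vale.Agent.KK.PP.Defs

/-!
# The Park and Pham counting lemma for large minimum fragments

For a family `Fam` of sets of size at most `m`, the expected `p`-cost of the minimum fragments of
size more than `τ`, under the product measure with parameter `q`, is at most
`∑ t ∈ Ioc τ m, (m choose t) (p / q) ^ t`.
-/

namespace Vale.Agent.Lib.P064

open Finset
open Vale.Agent.KK.PP

variable {X : Type*} [Fintype X] [DecidableEq X]

omit [Fintype X] in
/-- Membership in the set of large fragments. -/
theorem mem_largeFrags_iff (Fam : Finset (Finset X)) (W : Finset X) (τ : ℕ) (T : Finset X) :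
    T ∈ largeFrags Fam W τ ↔ (∃ S ∈ Fam, frag Fam W S = T) ∧ τ < T.card := by
  unfold largeFrags
  rw [mem_filter, mem_image]

omit [Fintype X] in
/-- The basic facts on a minimum fragment `T = frag Fam W S`: it is disjoint from `W`, some
member of the family lies inside `W ∪ T`, and every member of the family inside `W ∪ T`
contains `T`. -/
theorem frag_facts (Fam : Finset (Finset X)) (W S : Finset X) (hS : S ∈ Fam) :
    Disjoint (frag Fam W S) W ∧ (∃ S' ∈ Fam, S' ⊆ W ∪ frag Fam W S) ∧
      ∀ S₁ ∈ Fam, S₁ ⊆ W ∪ frag Fam W S → frag Fam W S ⊆ S₁ := by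
  obtain ⟨⟨S', hS', hsub, hT⟩, hmin⟩ := frag_spec Fam W S hS
  refine ⟨?_, ⟨S', hS', ?_⟩, ?_⟩
  · rw [hT]; exact sdiff_disjoint
  · rw [hT]; intro x hx; by_cases hxW : x ∈ W
    · exact mem_union_left _ hxW
    · exact mem_union_right _ (mem_sdiff.2 ⟨hx, hxW⟩)
  · intro S₁ hS₁ hS₁sub
    have hTS : frag Fam W S ⊆ S := by
      rw [hT]; intro x hx
      rw [mem_sdiff] at hx
      rcases mem_union.1 (hsub hx.1) with h | h
      · exact h
      · exact absurd h hx.2
    have h1 : S₁ ⊆ S ∪ W := by
      intro x hx
      rcases mem_union.1 (hS₁sub hx) with h | h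
      · exact mem_union_right _ h
      · exact mem_union_left _ (hTS h)
    have h2 : (frag Fam W S).card ≤ (S₁ \ W).card := hmin S₁ hS₁ h1
    have h3 : S₁ \ W ⊆ frag Fam W S := by
      intro x hx
      rw [mem_sdiff] at hx
      rcases mem_union.1 (hS₁sub hx.1) with h | h
      · exact absurd h hx.2
      · exact h
    have h4 : S₁ \ W = frag Fam W S := eq_of_subset_of_card_le h3 h2
    rw [← h4]; exact sdiff_subset

omit [DecidableEq X] in
/-- The product measure is nonnegative for a parameter in the unit interval. -/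
theorem bern_nonneg' (q : ℝ) (hq0 : 0 ≤ q) (hq1 : q ≤ 1) (W : Finset X) : 0 ≤ bern q W := by
  unfold bern
  exact mul_nonneg (pow_nonneg hq0 _) (pow_nonneg (by linarith) _)

omit [DecidableEq X] in
/-- The product measure has total mass one. -/
theorem sum_bern' (q : ℝ) : ∑ W : Finset X, bern q W = 1 := by
  unfold bern
  have h := Finset.sum_pow_mul_eq_add_pow q (1 - q) (univ : Finset X)
  rw [powerset_univ, card_univ] at h
  rw [h]
  have : q + (1 - q) = 1 := by ring
  rw [this, one_pow]

/-- Moving a set `T` disjoint from `W` into `W` costs at most a factor `q ^ T.card`. -/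
theorem bern_step (q p : ℝ) (hp : 0 ≤ p) (hq : 0 < q) (hq1 : q ≤ 1) (W T : Finset X)
    (hd : Disjoint T W) :
    bern q W * p ^ T.card ≤ bern q (W ∪ T) * (p / q) ^ T.card := by
  unfold bern
  have hc : (W ∪ T).card = W.card + T.card := card_union_of_disjoint hd.symm
  have hle : W.card + T.card ≤ Fintype.card X := by
    rw [← hc]; exact card_le_univ _
  rw [hc]
  have h1q : 0 ≤ 1 - q := by linarith
  have h1q' : 1 - q ≤ 1 := by linarith
  have hpow : (1 - q) ^ (Fintype.card X - W.card) ≤
      (1 - q) ^ (Fintype.card X - (W.card + T.card)) :=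
    pow_le_pow_of_le_one h1q h1q' (by omega)
  have hqne : q ≠ 0 := hq.ne'
  have hrw : q ^ (W.card + T.card) * (1 - q) ^ (Fintype.card X - (W.card + T.card)) *
      (p / q) ^ T.card
      = q ^ W.card * (1 - q) ^ (Fintype.card X - (W.card + T.card)) * p ^ T.card := by
    rw [pow_add, div_pow]
    field_simp
  rw [hrw]
  have hqW : 0 ≤ q ^ W.card := pow_nonneg hq.le _
  have hpT : 0 ≤ p ^ T.card := pow_nonneg hp _
  exact mul_le_mul_of_nonneg_right (mul_le_mul_of_nonneg_left hpow hqW) hpT

/-- The Park and Pham counting lemma for large minimum fragments. -/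
theorem large_cost_le (Fam : Finset (Finset X)) (m τ : ℕ) (hFam : ∀ S ∈ Fam, S.card ≤ m)
    (p q : ℝ) (hp : 0 ≤ p) (hq : 0 < q) (hq1 : q ≤ 1) :
    ∑ W : Finset X, bern q W * ∑ T ∈ largeFrags Fam W τ, p ^ T.card ≤
      ∑ t ∈ Finset.Ioc τ m, (m.choose t : ℝ) * (p / q) ^ t := by
  classical
  have hx : 0 ≤ p / q := div_nonneg hp hq.le
  set x : ℝ := p / q with hxdef
  set R : ℝ := ∑ t ∈ Finset.Ioc τ m, (m.choose t : ℝ) * x ^ t with hR
  have hR0 : 0 ≤ R :=
    Finset.sum_nonneg (fun t _ => mul_nonneg (Nat.cast_nonneg _) (pow_nonneg hx _))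
  -- the large fragments seen from the union `Z = W ∪ T`
  let P : Finset X → Finset (Finset X) := fun Z =>
    Z.powerset.filter (fun T => T ∈ largeFrags Fam (Z \ T) τ)
  have hP : ∀ Z T, T ∈ P Z ↔ T ⊆ Z ∧ T ∈ largeFrags Fam (Z \ T) τ := by
    intro Z T
    simp only [P, mem_filter, mem_powerset]
  -- Step A: for a fixed union `Z` the fragments all lie in one member of the family
  have stepA : ∀ Z : Finset X, ∑ T ∈ P Z, x ^ T.card ≤ R := by
    intro Z
    rcases (P Z).eq_empty_or_nonempty with hE | ⟨T₀, hT₀⟩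
    · rw [hE, sum_empty]; exact hR0
    · obtain ⟨hT₀Z, hT₀L⟩ := (hP Z T₀).1 hT₀
      rw [mem_largeFrags_iff] at hT₀L
      obtain ⟨⟨S₀, hS₀, hfr₀⟩, _⟩ := hT₀L
      obtain ⟨_, ⟨S₁, hS₁, hS₁sub⟩, _⟩ := frag_facts Fam (Z \ T₀) S₀ hS₀
      rw [hfr₀, sdiff_union_of_subset hT₀Z] at hS₁sub
      have hsub : P Z ⊆ S₁.powerset := by
        intro T hT
        obtain ⟨hTZ, hTL⟩ := (hP Z T).1 hT
        rw [mem_largeFrags_iff] at hTL
        obtain ⟨⟨S, hS, hfr⟩, _⟩ := hTL
        obtain ⟨_, _, hkey⟩ := frag_facts Fam (Z \ T) S hS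
        rw [hfr, sdiff_union_of_subset hTZ] at hkey
        exact mem_powerset.2 (hkey S₁ hS₁ hS₁sub)
      let f : ℕ → ℝ := fun t => if τ < t then x ^ t else 0
      have hf0 : ∀ t, 0 ≤ f t := by
        intro t
        simp only [f]
        split_ifs
        · exact pow_nonneg hx _
        · exact le_rfl
      have hS₁m : S₁.card ≤ m := hFam S₁ hS₁
      calc ∑ T ∈ P Z, x ^ T.card = ∑ T ∈ P Z, f T.card := by
            refine sum_congr rfl (fun T hT => ?_)
            have hlt := ((mem_largeFrags_iff Fam _ τ T).1 ((hP Z T).1 hT).2).2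
            simp only [f, if_pos hlt]
        _ ≤ ∑ T ∈ S₁.powerset, f T.card :=
            sum_le_sum_of_subset_of_nonneg hsub (fun T _ _ => hf0 _)
        _ = ∑ t ∈ range (S₁.card + 1), S₁.card.choose t • f t := sum_powerset_apply_card f
        _ ≤ ∑ t ∈ range (S₁.card + 1), m.choose t • f t := by
            refine sum_le_sum (fun t _ => ?_)
            rw [nsmul_eq_mul, nsmul_eq_mul]
            exact mul_le_mul_of_nonneg_right
              (by exact_mod_cast Nat.choose_le_choose t hS₁m) (hf0 t)
        _ ≤ ∑ t ∈ range (m + 1), m.choose t • f t := by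
            refine sum_le_sum_of_subset_of_nonneg ?_ (fun t _ _ => ?_)
            · intro t ht
              rw [mem_range] at ht ⊢
              omega
            · rw [nsmul_eq_mul]; exact mul_nonneg (Nat.cast_nonneg _) (hf0 t)
        _ = R := by
            rw [hR]
            have hIoc : Finset.Ioc τ m = (range (m + 1)).filter (fun t => τ < t) := by
              ext t
              simp only [mem_Ioc, mem_filter, mem_range]
              omega
            rw [hIoc, sum_filter]
            refine sum_congr rfl (fun t _ => ?_)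
            simp only [f, nsmul_eq_mul]
            split_ifs <;> simp
  -- Step B: pass from `W` to the union `Z = W ∪ T`
  have stepB : ∑ W : Finset X, bern q W * ∑ T ∈ largeFrags Fam W τ, p ^ T.card ≤
      ∑ Z : Finset X, bern q Z * ∑ T ∈ P Z, x ^ T.card := by
    calc ∑ W : Finset X, bern q W * ∑ T ∈ largeFrags Fam W τ, p ^ T.card
        = ∑ W : Finset X, ∑ T ∈ largeFrags Fam W τ, bern q W * p ^ T.card := by
          refine sum_congr rfl (fun W _ => ?_)
          rw [mul_sum]
      _ ≤ ∑ W : Finset X, ∑ T ∈ largeFrags Fam W τ, bern q (W ∪ T) * x ^ T.card := by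
          refine sum_le_sum (fun W _ => sum_le_sum (fun T hT => ?_))
          obtain ⟨⟨S, hS, hfr⟩, _⟩ := (mem_largeFrags_iff Fam W τ T).1 hT
          have hd : Disjoint T W := by
            rw [← hfr]; exact (frag_facts Fam W S hS).1
          exact bern_step q p hp hq hq1 W T hd
      _ = ∑ T : Finset X, ∑ W ∈ univ.filter (fun W => T ∈ largeFrags Fam W τ),
            bern q (W ∪ T) * x ^ T.card := by
          refine sum_comm' (fun W T => ?_)
          simp only [mem_univ, mem_filter, true_and, and_true]
      _ ≤ ∑ T : Finset X, ∑ Z ∈ univ.filter (fun Z => T ∈ P Z), bern q Z * x ^ T.card := by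
          refine sum_le_sum (fun T _ => ?_)
          have hdis : ∀ W ∈ univ.filter (fun W => T ∈ largeFrags Fam W τ), Disjoint T W := by
            intro W hW
            rw [mem_filter] at hW
            obtain ⟨⟨S, hS, hfr⟩, _⟩ := (mem_largeFrags_iff Fam W τ T).1 hW.2
            rw [← hfr]; exact (frag_facts Fam W S hS).1
          have hinj : Set.InjOn (fun W : Finset X => W ∪ T)
              (univ.filter (fun W => T ∈ largeFrags Fam W τ) : Finset (Finset X)) := by
            intro W₁ h₁ W₂ h₂ h
            have e₁ := union_sdiff_cancel_right (hdis W₁ (mem_coe.1 h₁)).symm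
            have e₂ := union_sdiff_cancel_right (hdis W₂ (mem_coe.1 h₂)).symm
            simp only at h
            rw [← e₁, ← e₂, h]
          have himg : (univ.filter (fun W => T ∈ largeFrags Fam W τ)).image
              (fun W : Finset X => W ∪ T) ⊆ univ.filter (fun Z => T ∈ P Z) := by
            intro Z hZ
            rw [mem_image] at hZ
            obtain ⟨W, hW, rfl⟩ := hZ
            rw [mem_filter]
            refine ⟨mem_univ _, (hP _ _).2 ⟨subset_union_right, ?_⟩⟩
            rw [union_sdiff_cancel_right (hdis W hW).symm]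
            exact (mem_filter.1 hW).2
          calc ∑ W ∈ univ.filter (fun W => T ∈ largeFrags Fam W τ), bern q (W ∪ T) * x ^ T.card
              = ∑ Z ∈ (univ.filter (fun W => T ∈ largeFrags Fam W τ)).image
                  (fun W : Finset X => W ∪ T), bern q Z * x ^ T.card :=
                (sum_image (f := fun Z => bern q Z * x ^ T.card) hinj).symm
            _ ≤ ∑ Z ∈ univ.filter (fun Z => T ∈ P Z), bern q Z * x ^ T.card :=
                sum_le_sum_of_subset_of_nonneg himg (fun Z _ _ =>
                  mul_nonneg (bern_nonneg' q hq.le hq1 Z) (pow_nonneg hx _))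
      _ = ∑ Z : Finset X, ∑ T ∈ P Z, bern q Z * x ^ T.card := by
          refine sum_comm' (fun T Z => ?_)
          simp only [mem_univ, mem_filter, true_and, and_true]
      _ = ∑ Z : Finset X, bern q Z * ∑ T ∈ P Z, x ^ T.card := by
          refine sum_congr rfl (fun Z _ => ?_)
          rw [mul_sum]
  calc ∑ W : Finset X, bern q W * ∑ T ∈ largeFrags Fam W τ, p ^ T.card
      ≤ ∑ Z : Finset X, bern q Z * ∑ T ∈ P Z, x ^ T.card := stepB
    _ ≤ ∑ Z : Finset X, bern q Z * R :=
        sum_le_sum (fun Z _ => mul_le_mul_of_nonneg_left (stepA Z) (bern_nonneg' q hq.le hq1 Z))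
    _ = R := by rw [← sum_mul, sum_bern', one_mul]

end Vale.Agent.Lib.P064
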